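import Vale.Agent.P011.E6I.Basic
import Vale.Agent.P011.E6.Phi
import Mathlib.RingTheory.AdjoinRoot

/-!
The reduced norms of the quaternion algebra over a cubic subfield of `D`.
-/

open NumberField Polynomial

namespace Vale.Agent.P011.E6I.H62

open Vale.Agent.P011.MPQ Vale.Agent.P011.D4 Vale.Agent.P011.D4.Oct Vale.Agent.P011.E6
open Matrix

section

variable {k L : Type} [Field k] [Field L] [Algebra k L] {ρ : L ≃ₐ[k] L} {lam : kˣ} {a b : kˣ}

theorem toMQ_eq_toM (T : Matrix (Fin 3) (Fin 3) L) :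
    (toMQ T : MQ L a b) = toM (up L a) (up L b) T 0 0 0 := by
  apply Matrix.ext
  intro i j
  rw [toM_coe]
  rfl

theorem toM_map_qmap (P₀ P₁ P₂ P₃ : Matrix (Fin 3) (Fin 3) L) :
    (toM (up L a) (up L b) P₀ P₁ P₂ P₃).map (qmap ρ) =
      toM (up L a) (up L b) (P₀.map ρ) (P₁.map ρ) (P₂.map ρ) (P₃.map ρ) := by
  apply Matrix.ext
  intro i j
  rfl

theorem inD_toM {P₀ P₁ P₂ P₃ : Matrix (Fin 3) (Fin 3) L} (h₀ : InD0 ρ lam P₀)
    (h₁ : InD0 ρ lam P₁) (h₂ : InD0 ρ lam P₂) (h₃ : InD0 ρ lam P₃) :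
    InD ρ lam (toM (up L a) (up L b) P₀ P₁ P₂ P₃ : MQ L a b) := by
  have e₀ : P₀ * u0 L lam = u0 L lam * P₀.map ρ := h₀
  have e₁ : P₁ * u0 L lam = u0 L lam * P₁.map ρ := h₁
  have e₂ : P₂ * u0 L lam = u0 L lam * P₂.map ρ := h₂
  have e₃ : P₃ * u0 L lam = u0 L lam * P₃.map ρ := h₃
  change toM (up L a) (up L b) P₀ P₁ P₂ P₃ * toMQ (u0 L lam) =
    toMQ (u0 L lam) * (toM (up L a) (up L b) P₀ P₁ P₂ P₃).map (qmap ρ)
  rw [toM_map_qmap, toMQ_eq_toM, E6.toM_mul, E6.toM_mul]
  apply toM_ext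
  · simp [e₀]
  · simp [e₁]
  · simp [e₂]
  · simp [e₃]

theorem inD0_add {x y : Matrix (Fin 3) (Fin 3) L} (hx : InD0 ρ lam x) (hy : InD0 ρ lam y) :
    InD0 ρ lam (x + y) := by
  have h₁ : x * u0 L lam = u0 L lam * x.map ρ := hx
  have h₂ : y * u0 L lam = u0 L lam * y.map ρ := hy
  change (x + y) * u0 L lam = u0 L lam * (x + y).map ρ
  rw [Matrix.map_add _ (map_add ρ), add_mul, mul_add, h₁, h₂]

theorem inD0_mul {x y : Matrix (Fin 3) (Fin 3) L} (hx : InD0 ρ lam x) (hy : InD0 ρ lam y) :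
    InD0 ρ lam (x * y) := by
  have h₁ : x * u0 L lam = u0 L lam * x.map ρ := hx
  have h₂ : y * u0 L lam = u0 L lam * y.map ρ := hy
  change x * y * u0 L lam = u0 L lam * (x * y).map ρ
  have h₃ : (x * y).map ρ = x.map ρ * y.map ρ := by
    have := map_mul (ρ : L →+* L).mapMatrix x y
    exact this
  rw [h₃, mul_assoc, h₂, ← mul_assoc, h₁, mul_assoc]

theorem inD0_ksmul_one (t : k) :
    InD0 ρ lam (algebraMap k L t • (1 : Matrix (Fin 3) (Fin 3) L)) := by
  change algebraMap k L t • (1 : Matrix (Fin 3) (Fin 3) L) * u0 L lam =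
    u0 L lam * (algebraMap k L t • (1 : Matrix (Fin 3) (Fin 3) L)).map ρ
  have h : (algebraMap k L t • (1 : Matrix (Fin 3) (Fin 3) L)).map ρ =
      algebraMap k L t • (1 : Matrix (Fin 3) (Fin 3) L) := by
    apply Matrix.ext
    intro i j
    by_cases h : i = j
    · subst h
      simp only [Matrix.map_apply, Matrix.smul_apply, Matrix.one_apply_eq, smul_eq_mul, mul_one]
      exact ρ.commutes t
    · simp [h]
  rw [h, smul_mul_assoc, one_mul, mul_smul_comm, mul_one]

theorem inD0_aeval {z : Matrix (Fin 3) (Fin 3) L} (hz : InD0 ρ lam z) (p : k[X]) :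
    InD0 ρ lam (aeval z (p.map (algebraMap k L))) := by
  induction p using Polynomial.induction_on with
  | C t =>
    rw [Polynomial.map_C, aeval_C, Algebra.algebraMap_eq_smul_one]
    exact inD0_ksmul_one t
  | add p q hp hq =>
    rw [Polynomial.map_add, map_add]
    exact inD0_add hp hq
  | monomial n t h =>
    rw [pow_succ, ← mul_assoc, Polynomial.map_mul, map_mul, Polynomial.map_X, aeval_X]
    exact inD0_mul h hz

end

section

variable {F : Type} [Field F] {a b : Fˣ}

theorem aeval_comm {z T : Matrix (Fin 3) (Fin 3) F} (h : z * T = T * zᵀ) (p : F[X]) :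
    aeval z p * T = T * (aeval z p)ᵀ := by
  induction p using Polynomial.induction_on with
  | C t =>
    rw [aeval_C, Algebra.algebraMap_eq_smul_one, smul_mul_assoc, one_mul,
      Matrix.transpose_smul, Matrix.transpose_one, mul_smul_comm, mul_one]
  | add p q hp hq =>
    rw [map_add, add_mul, hp, hq, Matrix.transpose_add, mul_add]
  | monomial n t hn =>
    rw [pow_succ, ← mul_assoc, map_mul, aeval_X, mul_assoc, h, ← mul_assoc, hn, mul_assoc,
      ← Matrix.transpose_mul]
    congr 2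
    have : Commute z (aeval z (C t * X ^ n)) := by
      have := Polynomial.aeval_X (R := F) z
      have h1 := Commute.all (X : F[X]) (C t * X ^ n)
      have h2 := h1.map (aeval (R := F) z)
      rwa [this] at h2
    exact this.eq

theorem star_q (p : QuaternionAlgebra F[X] (C (a : F)) 0 (C (b : F))) :
    star p = ⟨p.re, -p.imI, -p.imJ, -p.imK⟩ := by
  ext1 <;> simp

theorem Phi_mul_toM {z T : Matrix (Fin 3) (Fin 3) F} (h : z * T = T * zᵀ)
    (p : QuaternionAlgebra F[X] (C (a : F)) 0 (C (b : F))) :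
    toM a b T 0 0 0 * (Phi a b z p)ᴴ = Phi a b z (star p) * toM a b T 0 0 0 := by
  rw [Phi_apply, Phi_apply, conjTranspose_toM, E6.toM_mul, E6.toM_mul, star_q]
  apply toM_ext
  · simp [aeval_comm h]
  · simp [aeval_comm h]
  · simp [aeval_comm h]
  · simp [aeval_comm h]

theorem mul_star_q (x y w v : F[X]) :
    (⟨x, y, w, v⟩ : QuaternionAlgebra F[X] (C (a : F)) 0 (C (b : F))) * star ⟨x, y, w, v⟩ =
      ((x ^ 2 - C (a : F) * y ^ 2 - C (b : F) * w ^ 2 + C (a : F) * C (b : F) * v ^ 2 : F[X]) :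
        QuaternionAlgebra F[X] (C (a : F)) 0 (C (b : F))) := by
  rw [star_q]
  ext1
  · simp only [QuaternionAlgebra.re_mul, QuaternionAlgebra.re_coe]
    ring
  · simp only [QuaternionAlgebra.imI_mul, QuaternionAlgebra.imI_coe]
    ring
  · simp only [QuaternionAlgebra.imJ_mul, QuaternionAlgebra.imJ_coe]
    ring
  · simp only [QuaternionAlgebra.imK_mul, QuaternionAlgebra.imK_coe]
    ring

theorem star_mul_q (x y w v : F[X]) :
    star (⟨x, y, w, v⟩ : QuaternionAlgebra F[X] (C (a : F)) 0 (C (b : F))) * ⟨x, y, w, v⟩ =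
      ((x ^ 2 - C (a : F) * y ^ 2 - C (b : F) * w ^ 2 + C (a : F) * C (b : F) * v ^ 2 : F[X]) :
        QuaternionAlgebra F[X] (C (a : F)) 0 (C (b : F))) := by
  rw [star_q]
  ext1
  · simp only [QuaternionAlgebra.re_mul, QuaternionAlgebra.re_coe]
    ring
  · simp only [QuaternionAlgebra.imI_mul, QuaternionAlgebra.imI_coe]
    ring
  · simp only [QuaternionAlgebra.imJ_mul, QuaternionAlgebra.imJ_coe]
    ring
  · simp only [QuaternionAlgebra.imK_mul, QuaternionAlgebra.imK_coe]
    ring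

end

end Vale.Agent.P011.E6I.H62

namespace Vale.Agent.P011.E6I

open Vale.Agent.P011.MPQ Vale.Agent.P011.D4 Vale.Agent.P011.D4.Oct Vale.Agent.P011.E6
open Matrix H62

/-- The norm theorem for the quaternion algebra over a cubic subfield of `D`. -/
theorem exists_e {k L : Type} [Field k] [NumberField k] [Field L] [NumberField L] [Algebra k L]
    {ρ : L ≃ₐ[k] L} {lam : kˣ} {a b c : kˣ} (_H : Hyp ρ lam a b c)
    {z : Matrix (Fin 3) (Fin 3) L} (hz : InD0 ρ lam z) {p2 p1 p0 : k}
    (hp : z ^ 3 + algebraMap k L p2 • z ^ 2 + algebraMap k L p1 • z +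
      algebraMap k L p0 • (1 : Matrix (Fin 3) (Fin 3) L) = 0)
    (hroot : ∀ t : k, t ^ 3 + p2 * t ^ 2 + p1 * t + p0 ≠ 0) {y0 y1 y2 : k}
    (hy : ¬ (y0 = 0 ∧ y1 = 0 ∧ y2 = 0))
    (hs : ∀ (τ : k →+* ℝ) (r : ℝ), τ a < 0 → τ b < 0 →
      r ^ 3 + τ p2 * r ^ 2 + τ p1 * r + τ p0 = 0 → 0 < τ y0 + τ y1 * r + τ y2 * r ^ 2) :
    ∃ e : (MQ L a b)ˣ, InD ρ lam (e : MQ L a b) ∧
      (e : MQ L a b) * toMQ z = toMQ z * (e : MQ L a b) ∧
      ∀ T : Matrix (Fin 3) (Fin 3) L, z * T = T * zᵀ →
        (e : MQ L a b) * toMQ T * (e : MQ L a b)ᴴ =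
          toMQ ((algebraMap k L y0 • (1 : Matrix (Fin 3) (Fin 3) L) + algebraMap k L y1 • z +
            algebraMap k L y2 • z ^ 2) * T) := by
  classical
  let f : k[X] := X ^ 3 + C p2 * X ^ 2 + C p1 * X + C p0
  have hfm : f.Monic := by
    simp only [f]
    monicity!
  have hfd : f.natDegree = 3 := by
    simp only [f]
    compute_degree!
  have hfr : f.roots = 0 := by
    rw [Multiset.eq_zero_iff_forall_notMem]
    intro t ht
    rw [mem_roots hfm.ne_zero] at ht
    apply hroot t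
    have h := ht
    rw [IsRoot.def] at h
    simpa [f] using h
  have hfi : Irreducible f :=
    (hfm.irreducible_iff_roots_eq_zero_of_degree_le_three (by omega) (by omega)).2 hfr
  have _ : Fact (Irreducible f) := ⟨hfi⟩
  have _ : FiniteDimensional k (AdjoinRoot f) := hfm.finite_adjoinRoot
  let g : k[X] := C y0 + C y1 * X + C y2 * X ^ 2
  have hg0 : g ≠ 0 := by
    intro h
    apply hy
    have h0 := congrArg (fun q => coeff q 0) h
    have h1 := congrArg (fun q => coeff q 1) h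
    have h2 := congrArg (fun q => coeff q 2) h
    simp [g, coeff_X, coeff_C, coeff_X_pow] at h0 h1 h2
    exact ⟨h0, h1, h2⟩
  have hgd : g.degree < f.degree := by
    rw [degree_eq_natDegree hfm.ne_zero, hfd]
    have : g.natDegree ≤ 2 := by
      simp only [g]
      compute_degree
    exact lt_of_le_of_lt degree_le_natDegree (by exact_mod_cast Nat.lt_succ_of_le this)
  have hν : AdjoinRoot.mk f g ≠ 0 := by
    rw [Ne, AdjoinRoot.mk_eq_zero]
    intro h
    exact hg0 (eq_zero_of_dvd_of_degree_lt h hgd)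
  have hpos : ∀ τ : AdjoinRoot f →+* ℝ, τ (algebraMap k _ a) < 0 → τ (algebraMap k _ b) < 0 →
      0 < τ (AdjoinRoot.mk f g) := by
    intro τ ha hb
    set τk : k →+* ℝ := τ.comp (algebraMap k (AdjoinRoot f)) with hτk
    set r : ℝ := τ (AdjoinRoot.root f) with hr
    have key : ∀ q : k[X], τ (AdjoinRoot.mk f q) = q.eval₂ τk r := by
      intro q
      have : τ.comp (AdjoinRoot.mk f) = eval₂RingHom τk r := by
        apply Polynomial.ringHom_ext
        · intro t
          simp [hτk]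
        · simp [hr]
      exact RingHom.congr_fun this q
    have h0 : f.eval₂ τk r = 0 := by
      rw [← key, AdjoinRoot.mk_self, map_zero]
    have h1 : r ^ 3 + τk p2 * r ^ 2 + τk p1 * r + τk p0 = 0 := by
      simpa [f] using h0
    have h2 := hs τk r ha hb h1
    rw [key]
    simpa [g] using h2
  obtain ⟨x, y, w, v, h⟩ := exists_nrd_alg a b (AdjoinRoot.mk f g) (isUnit_iff_ne_zero.2 hν) hpos
  obtain ⟨x, rfl⟩ := AdjoinRoot.mk_surjective x
  obtain ⟨y, rfl⟩ := AdjoinRoot.mk_surjective y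
  obtain ⟨w, rfl⟩ := AdjoinRoot.mk_surjective w
  obtain ⟨v, rfl⟩ := AdjoinRoot.mk_surjective v
  obtain ⟨q, hq⟩ := AdjoinRoot.mk_surjective ((AdjoinRoot.mk f g)⁻¹)
  have hfz : aeval z (f.map (algebraMap k L)) = 0 := by
    simp only [f, Polynomial.map_add, Polynomial.map_mul, Polynomial.map_pow, map_X, map_C,
      map_add, map_mul, map_pow, aeval_X, aeval_C]
    rw [← hp]
    simp only [Algebra.algebraMap_eq_smul_one (A := Matrix (Fin 3) (Fin 3) L),
      smul_one_mul]
  have hev : ∀ {r s : k[X]}, AdjoinRoot.mk f r = AdjoinRoot.mk f s →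
      aeval z (r.map (algebraMap k L)) = aeval z (s.map (algebraMap k L)) := by
    intro r s hrs
    rw [AdjoinRoot.mk_eq_mk] at hrs
    obtain ⟨t, ht⟩ := hrs
    have e1 : r = s + f * t := by rw [← ht]; ring
    rw [e1, Polynomial.map_add, Polynomial.map_mul, map_add, map_mul, hfz, zero_mul, add_zero]
  have hga : aeval z (g.map (algebraMap k L)) =
      algebraMap k L y0 • (1 : Matrix (Fin 3) (Fin 3) L) + algebraMap k L y1 • z +
            algebraMap k L y2 • z ^ 2 := by
    simp only [g, Polynomial.map_add, Polynomial.map_mul, Polynomial.map_pow, map_X, map_C,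
      map_add, map_mul, map_pow, aeval_X, aeval_C]
    simp only [Algebra.algebraMap_eq_smul_one (A := Matrix (Fin 3) (Fin 3) L),
      smul_one_mul]
  let n : QuaternionAlgebra L[X] (C (up L a : L)) 0 (C (up L b : L)) :=
    ⟨x.map (algebraMap k L), y.map (algebraMap k L), w.map (algebraMap k L),
      v.map (algebraMap k L)⟩
  let nn : k[X] := x ^ 2 - C (a : k) * y ^ 2 - C (b : k) * w ^ 2 + C (a : k) * C (b : k) * v ^ 2
  have hnnm : nn.map (algebraMap k L) = x.map (algebraMap k L) ^ 2 -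
      C (up L a : L) * y.map (algebraMap k L) ^ 2 - C (up L b : L) * w.map (algebraMap k L) ^ 2 +
      C (up L a : L) * C (up L b : L) * v.map (algebraMap k L) ^ 2 := by
    simp only [nn, Polynomial.map_add, Polynomial.map_sub, Polynomial.map_mul,
      Polynomial.map_pow, map_C]
    rfl
  have hnn1 : n * star n = ((nn.map (algebraMap k L) : L[X]) :
      QuaternionAlgebra L[X] (C (up L a : L)) 0 (C (up L b : L))) := by
    rw [hnnm]
    exact mul_star_q _ _ _ _
  have hnn2 : star n * n = ((nn.map (algebraMap k L) : L[X]) :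
      QuaternionAlgebra L[X] (C (up L a : L)) 0 (C (up L b : L))) := by
    rw [hnnm]
    exact star_mul_q _ _ _ _
  have hnn3 : AdjoinRoot.mk f nn = AdjoinRoot.mk f g := by
    rw [← h]
    simp only [nn, map_add, map_sub, map_mul, map_pow]
    rfl
  have hq1 : AdjoinRoot.mk f (nn * q) = AdjoinRoot.mk f 1 := by
    rw [map_mul, hnn3, hq, mul_inv_cancel₀ hν, map_one]
  have hQ1 : Phi (up L a) (up L b) z (((nn * q).map (algebraMap k L) : L[X]) :
      QuaternionAlgebra L[X] (C (up L a : L)) 0 (C (up L b : L))) = 1 := by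
    have h1 : aeval z ((nn * q).map (algebraMap k L)) = aeval z (1 : L[X]) := by
      rw [hev hq1, Polynomial.map_one]
    rw [Phi_coe_congr h1]
    rw [show ((1 : L[X]) : QuaternionAlgebra L[X] (C (up L a : L)) 0 (C (up L b : L))) = 1 from rfl,
      map_one]
  let E : MQ L a b := Phi (up L a) (up L b) z n
  let E' : MQ L a b := Phi (up L a) (up L b) z (star n *
    ((q.map (algebraMap k L) : L[X]) : QuaternionAlgebra L[X] (C (up L a : L)) 0 (C (up L b : L))))
  have hEE' : E * E' = 1 := by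
    simp only [E, E']
    rw [← map_mul, ← mul_assoc, hnn1, ← QuaternionAlgebra.coe_mul, ← Polynomial.map_mul, hQ1]
  have hE'E : E' * E = 1 := by
    simp only [E, E']
    rw [← map_mul, ← QuaternionAlgebra.coe_commutes, mul_assoc, hnn2,
      ← QuaternionAlgebra.coe_mul, ← Polynomial.map_mul, mul_comm q nn, hQ1]
  refine ⟨⟨E, E', hEE', hE'E⟩, ?_, ?_, ?_⟩
  · change InD ρ lam E
    simp only [E]
    rw [Phi_apply]
    exact inD_toM (inD0_aeval hz x) (inD0_aeval hz y) (inD0_aeval hz w) (inD0_aeval hz v)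
  · change E * toMQ z = toMQ z * E
    have h1 : (toMQ z : MQ L a b) = Phi (up L a) (up L b) z ((X : L[X]) :
        QuaternionAlgebra L[X] (C (up L a : L)) 0 (C (up L b : L))) := by
      rw [Phi_coe, aeval_X, toMQ_eq_toM]
    simp only [E]
    rw [h1, ← map_mul, ← map_mul, QuaternionAlgebra.coe_commutes]
  · intro T hT
    change E * toMQ T * Eᴴ = _
    simp only [E]
    rw [mul_assoc, toMQ_eq_toM T, Phi_mul_toM hT, ← mul_assoc, ← map_mul, hnn1, Phi_coe,
      hev hnn3, hga, ← toMQ_eq_toM, ← toMQ_eq_toM, ← toMQ_mul]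

end Vale.Agent.P011.E6I
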